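import Vale.Agent.P092.SR.Defs
import Vale.Agent.P092.H421.Hs5
import Vale.Agent.P092.H962.EqP

/-!
P092 (helper862), project FI, [RFR]: restriction of the three representations to a normal subgroup
`N` of finite index and to the range of a projection `z` which commutes with them.
-/

set_option linter.all false

open scoped InnerProductSpace ENNReal
open Filter Topology ContinuousLinearMap MeasureTheory

namespace Vale.Agent.P092.H862.FI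

open Vale.Agent.P092.SR (Tri)
open Vale.Agent.P092.H421.Hs (Frq Mixq trq Pf pf_of_hasSum cm_ap inv_ap inner_mv norm_U zero_of_mix
  trq_indep enn_congr)

/-! ### Cosets -/

section cos

variable {Γ : Type} [Group Γ] (N : Subgroup Γ) [N.Normal]

theorem mk_mul_out (n : N) (x : Γ ⧸ N) : (((n : Γ) * x.out : Γ) : Γ ⧸ N) = x := by
  have h1 : (((n : Γ) * x.out : Γ) : Γ ⧸ N) = ((n : Γ) : Γ ⧸ N) * ((x.out : Γ) : Γ ⧸ N) := rfl
  rw [h1, (QuotientGroup.eq_one_iff (n : Γ)).2 n.2, one_mul, QuotientGroup.out_eq']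

/-- `(n, x) ↦ n x.out` -/
noncomputable def cE : N × (Γ ⧸ N) ≃ Γ :=
  Equiv.ofBijective (fun p => (p.1 : Γ) * p.2.out) (by
    constructor
    · rintro ⟨n, x⟩ ⟨m, y⟩ h
      have h0 : (n : Γ) * x.out = (m : Γ) * y.out := h
      have h1 : x = y := by rw [← mk_mul_out N n x, h0, mk_mul_out N m y]
      subst h1
      have h2 := mul_right_cancel h0
      exact Prod.ext (Subtype.ext h2) rfl
    · intro γ
      have h1 : γ * ((γ : Γ ⧸ N).out)⁻¹ ∈ N := by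
        rw [← QuotientGroup.eq_one_iff]
        have h2 : ((γ * ((γ : Γ ⧸ N).out)⁻¹ : Γ) : Γ ⧸ N) =
            (γ : Γ ⧸ N) * (((γ : Γ ⧸ N).out : Γ) : Γ ⧸ N)⁻¹ := rfl
        rw [h2, QuotientGroup.out_eq', mul_inv_cancel]
      exact ⟨(⟨_, h1⟩, (γ : Γ ⧸ N)), by
        change γ * ((γ : Γ ⧸ N).out)⁻¹ * (γ : Γ ⧸ N).out = γ
        rw [inv_mul_cancel_right]⟩)

theorem cE_ap (n : N) (x : Γ ⧸ N) : cE N (n, x) = (n : Γ) * x.out := rfl

end cos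

/-! ### The range of a projection -/

section cut

variable {ℋ 𝒦 : Type} [NormedAddCommGroup ℋ] [InnerProductSpace ℂ ℋ] [CompleteSpace ℋ]
  [NormedAddCommGroup 𝒦] [InnerProductSpace ℂ 𝒦] [CompleteSpace 𝒦]

/-- `j` is an isometry onto the range of the projection `z` -/
structure Cut (z : ℋ →L[ℂ] ℋ) (j : 𝒦 →ₗᵢ[ℂ] ℋ) : Prop where
  zj : ∀ v, z (j v) = j v
  jc : ∀ u, j (adjoint j.toContinuousLinearMap u) = z u

variable {z : ℋ →L[ℂ] ℋ} {j : 𝒦 →ₗᵢ[ℂ] ℋ}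

theorem cj (j : 𝒦 →ₗᵢ[ℂ] ℋ) (v : 𝒦) : adjoint j.toContinuousLinearMap (j v) = v := by
  refine ext_inner_left ℂ fun w => ?_
  rw [adjoint_inner_right]
  exact j.inner_map_map w v

theorem exists_cut (ha : adjoint z = z) (hz : z * z = z) :
    ∃ (𝒦 : Type) (_ : NormedAddCommGroup 𝒦) (_ : InnerProductSpace ℂ 𝒦) (_ : CompleteSpace 𝒦)
      (j : 𝒦 →ₗᵢ[ℂ] ℋ), Cut z j := by
  set F : Submodule ℂ ℋ := LinearMap.ker ((1 - z : ℋ →L[ℂ] ℋ) : ℋ →ₗ[ℂ] ℋ) with hF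
  have hFm : ∀ v, v ∈ F ↔ z v = v := by
    intro v
    rw [hF, LinearMap.mem_ker]
    change v - z v = 0 ↔ _
    rw [sub_eq_zero, eq_comm]
  haveI : CompleteSpace F := (ContinuousLinearMap.isClosed_ker (1 - z)).completeSpace_coe
  have hzF : ∀ u, z u ∈ F := fun u => (hFm _).2 (congrArg (fun T : ℋ →L[ℂ] ℋ => T u) hz)
  refine ⟨F, inferInstance, inferInstance, inferInstance, F.subtypeₗᵢ, fun v => (hFm _).1 v.2,
    fun u => ?_⟩
  have h1 : adjoint F.subtypeₗᵢ.toContinuousLinearMap u = ⟨z u, hzF u⟩ := by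
    refine ext_inner_left ℂ fun w => ?_
    rw [adjoint_inner_right]
    change ⟪(w : ℋ), u⟫_ℂ = ⟪(w : ℋ), z u⟫_ℂ
    rw [← adjoint_inner_left, ha, (hFm _).1 w.2]
  rw [h1]
  rfl

/-- the compression of a representation of `Γ` to `N` and `𝒦` -/
noncomputable def cutR {Γ : Type} [Group Γ] (N : Subgroup Γ) (hj : Cut z j)
    (U : Γ →* (ℋ →L[ℂ] ℋ)) (hU : ∀ n : N, z * U n = U n * z) : N →* (𝒦 →L[ℂ] 𝒦) where
  toFun n := (adjoint j.toContinuousLinearMap) ∘L (U (n : Γ)) ∘L j.toContinuousLinearMap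
  map_one' := by
    ext1 v
    change adjoint j.toContinuousLinearMap (U ((1 : N) : Γ) (j v)) = v
    rw [Subgroup.coe_one, map_one]
    exact cj j v
  map_mul' n m := by
    ext1 v
    change adjoint j.toContinuousLinearMap (U ((n * m : N) : Γ) (j v)) =
      adjoint j.toContinuousLinearMap (U (n : Γ) (j (adjoint j.toContinuousLinearMap
        (U (m : Γ) (j v)))))
    rw [hj.jc, cm_ap (hU m), hj.zj, Subgroup.coe_mul, map_mul]
    rfl

variable {Γ : Type} [Group Γ] {N : Subgroup Γ} (hj : Cut z j) {U : Γ →* (ℋ →L[ℂ] ℋ)}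
  (hU : ∀ n : N, z * U n = U n * z)

theorem cutR_j (n : N) (v : 𝒦) : j (cutR N hj U hU n v) = U (n : Γ) (j v) := by
  change j (adjoint j.toContinuousLinearMap (U (n : Γ) (j v))) = _
  rw [hj.jc, cm_ap (hU n), hj.zj]

theorem cutR_c (n : N) (u : ℋ) : cutR N hj U hU n (adjoint j.toContinuousLinearMap u) =
    adjoint j.toContinuousLinearMap (U (n : Γ) u) := by
  apply j.injective
  rw [cutR_j, hj.jc, hj.jc, cm_ap (hU n)]

theorem cutR_adj (h : ∀ g, adjoint (U g) = U g⁻¹) (n : N) :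
    adjoint (cutR N hj U hU n) = cutR N hj U hU n⁻¹ := by
  refine ContinuousLinearMap.ext fun v => ext_inner_left ℂ fun w => ?_
  rw [adjoint_inner_right, ← j.inner_map_map, ← j.inner_map_map w, cutR_j, cutR_j,
    Subgroup.coe_inv, ← h, adjoint_inner_right]

theorem cutR_comm {U' : Γ →* (ℋ →L[ℂ] ℋ)} (hU' : ∀ n : N, z * U' n = U' n * z)
    (h : ∀ g g', U g * U' g' = U' g' * U g) (n m : N) :
    cutR N hj U hU n * cutR N hj U' hU' m = cutR N hj U' hU' m * cutR N hj U hU n := by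
  ext1 v
  apply j.injective
  change j (cutR N hj U hU n (cutR N hj U' hU' m v)) = j (cutR N hj U' hU' m (cutR N hj U hU n v))
  rw [cutR_j, cutR_j, cutR_j, cutR_j, cm_ap (h _ _)]

end cut

/-! ### Parseval families -/

section fr

variable {Γ : Type} [Group Γ] (N : Subgroup Γ) [N.Normal]
  {ℋ 𝒦 : Type} [NormedAddCommGroup ℋ] [InnerProductSpace ℂ ℋ] [CompleteSpace ℋ]
  [NormedAddCommGroup 𝒦] [InnerProductSpace ℂ 𝒦] [CompleteSpace 𝒦]
  {z : ℋ →L[ℂ] ℋ} {j : 𝒦 →ₗᵢ[ℂ] ℋ} {V R₁ R₂ : Γ →* (ℋ →L[ℂ] ℋ)}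

/-- the index bijection -/
noncomputable def iE (κ : Type) :
    (κ × (Γ ⧸ N) × (Γ ⧸ N)) × N × N ≃ κ × Γ × Γ where
  toFun p := (p.1.1, cE N (p.2.1, p.1.2.1), cE N (p.2.2, p.1.2.2))
  invFun p := ((p.1, ((cE N).symm p.2.1).2, ((cE N).symm p.2.2).2), ((cE N).symm p.2.1).1,
    ((cE N).symm p.2.2).1)
  left_inv p := by
    obtain ⟨⟨k, x, y⟩, n, m⟩ := p
    simp
  right_inv p := by
    obtain ⟨k, a, b⟩ := p
    simp

/-- the new family -/
noncomputable def xi' (R₁ R₂ : Γ →* (ℋ →L[ℂ] ℋ)) {κ : Type} (ξ : κ → ℋ)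
    (p : κ × (Γ ⧸ N) × (Γ ⧸ N)) : ℋ := R₁ p.2.1.out (R₂ p.2.2.out (ξ p.1))

theorem tri_cut [N.FiniteIndex] (hj : Cut z j) (h1 : ∀ n : N, z * V n = V n * z)
    (h2 : ∀ n : N, z * R₁ n = R₁ n * z) (h3 : ∀ n : N, z * R₂ n = R₂ n * z) (hz : z ≠ 0)
    (ha : adjoint z = z) {κ : Type} [Fintype κ] [Fintype (Γ ⧸ N)] {ξ : κ → ℋ}
    (h : Tri V R₁ R₂ ξ) :
    Tri (cutR N hj V h1) (cutR N hj R₁ h2) (cutR N hj R₂ h3)
      (fun p => adjoint j.toContinuousLinearMap (xi' N R₁ R₂ ξ p)) := by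
  have fr : ∀ η : 𝒦, HasSum (fun p : (κ × (Γ ⧸ N) × (Γ ⧸ N)) × N × N =>
      ‖⟪cutR N hj R₁ h2 p.2.1 (cutR N hj R₂ h3 p.2.2 (adjoint j.toContinuousLinearMap
        (xi' N R₁ R₂ ξ p.1))), η⟫_ℂ‖ ^ 2) (‖η‖ ^ 2) := by
    intro η
    have e1 := (iE N κ).hasSum_iff.2 (h.frame (j η))
    rw [j.norm_map] at e1
    refine e1.congr_fun ?_ |> id
    rintro ⟨⟨k, x, y⟩, n, m⟩
    rw [cutR_c, cutR_c, adjoint_inner_left]
    change ‖⟪R₁ (n : Γ) (R₂ (m : Γ) (R₁ x.out (R₂ y.out (ξ k)))), j η⟫_ℂ‖ ^ 2 =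
      ‖⟪R₁ ((n : Γ) * x.out) (R₂ ((m : Γ) * y.out) (ξ k)), j η⟫_ℂ‖ ^ 2
    rw [map_mul R₁, map_mul R₂]
    change _ = ‖⟪R₁ (n : Γ) (R₁ x.out (R₂ (m : Γ) (R₂ y.out (ξ k)))), j η⟫_ℂ‖ ^ 2
    rw [cm_ap (h.comm₁₂ x.out m)]
  refine ⟨cutR_adj hj h1 h.adjV, cutR_adj hj h2 h.adj₁, cutR_adj hj h3 h.adj₂,
    cutR_comm hj h1 h2 h.comm₁, cutR_comm hj h1 h3 h.comm₂, cutR_comm hj h2 h3 h.comm₁₂, ?_, fr⟩
  by_contra hcon
  push Not at hcon
  apply hz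
  ext1 u
  have e1 := fr (adjoint j.toContinuousLinearMap u)
  simp only [hcon, map_zero, inner_zero_left, norm_zero] at e1
  have e2 : (fun _ : (κ × (Γ ⧸ N) × (Γ ⧸ N)) × N × N => (0 : ℝ) ^ 2) = fun _ => 0 := by
    funext _; ring
  rw [e2] at e1
  have e3 := e1.unique hasSum_zero
  have e4 : adjoint j.toContinuousLinearMap u = 0 :=
    norm_eq_zero.1 (pow_eq_zero_iff two_ne_zero |>.mp e3)
  rw [← hj.jc, e4, map_zero]
  rfl

/-! ### Mixing -/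

omit [N.Normal] in
/-- mixing for the subgroup: the family `R (x.out) (e q)` -/
theorem frq_res [N.Normal] {R : Γ →* (ℋ →L[ℂ] ℋ)} {Q : Type} {e : Q → ℋ} (h : Frq R e) :
    Frq (R.comp N.subtype) (fun p : Q × (Γ ⧸ N) => R p.2.out (e p.1)) := by
  refine pf_of_hasSum fun η => ?_
  have h1 := Pf.hasSum h η
  let i : (Q × (Γ ⧸ N)) × N ≃ Q × Γ :=
    { toFun := fun p => (p.1.1, cE N (p.2, p.1.2))
      invFun := fun p => ((p.1, ((cE N).symm p.2).2), ((cE N).symm p.2).1)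
      left_inv := fun p => by obtain ⟨⟨q, x⟩, n⟩ := p; simp
      right_inv := fun p => by obtain ⟨q, g⟩ := p; simp }
  refine (i.hasSum_iff.2 h1).congr_fun ?_ |> id
  rintro ⟨⟨q, x⟩, n⟩
  change ‖⟪R (n : Γ) (R x.out (e q)), η⟫_ℂ‖ ^ 2 = ‖⟪R ((n : Γ) * x.out) (e q), η⟫_ℂ‖ ^ 2
  rw [map_mul]
  rfl

theorem mixq_res {R : Γ →* (ℋ →L[ℂ] ℋ)} (hRa : ∀ g, adjoint (R g) = R g⁻¹)
    (hVR : ∀ g h, V g * R h = R h * V g) {Q : Type} {e : Q → ℋ} (h : Mixq V R e) :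
    Mixq (V.comp N.subtype) (R.comp N.subtype) (fun p : Q × (Γ ⧸ N) => R p.2.out (e p.1)) := by
  rintro ⟨q, x⟩ ⟨q₀, y⟩
  have h1 : Tendsto (fun n : N => ∑' b, ‖⟪R b (e q), V (n : Γ) (e q₀)⟫_ℂ‖ₑ ^ 2) cofinite (𝓝 0) :=
    (h q q₀).comp (Function.Injective.tendsto_cofinite Subtype.val_injective)
  refine tendsto_of_tendsto_of_tendsto_of_le_of_le tendsto_const_nhds h1 (fun _ => zero_le)
    fun n => ?_
  have e1 : ∀ b : N, ‖⟪R (b : Γ) (R x.out (e q)), V (n : Γ) (R y.out (e q₀))⟫_ℂ‖ₑ ^ 2 =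
      ‖⟪R ((y.out)⁻¹ * ((b : Γ) * x.out)) (e q), V (n : Γ) (e q₀)⟫_ℂ‖ₑ ^ 2 := by
    intro b
    rw [cm_ap (hVR n y.out), ← adjoint_inner_left, hRa, map_mul, map_mul]
    rfl
  have h2 : Function.Injective (fun b : N => (y.out)⁻¹ * ((b : Γ) * x.out)) := by
    intro b b' hb
    exact Subtype.ext (mul_right_cancel (mul_left_cancel hb))
  refine le_trans (le_of_eq (tsum_congr e1)) ?_
  exact ENNReal.tsum_comp_le_tsum_of_injective h2 fun b => ‖⟪R b (e q), V (n : Γ) (e q₀)⟫_ℂ‖ₑ ^ 2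

/-- compression of a Parseval family -/
theorem frq_cut (hj : Cut z j) {R : Γ →* (ℋ →L[ℂ] ℋ)} (hR : ∀ n : N, z * R n = R n * z)
    {Q : Type} {e : Q → ℋ} (h : Frq (R.comp N.subtype) e) :
    Frq (cutR N hj R hR) (fun q => adjoint j.toContinuousLinearMap (e q)) := by
  intro η
  have h1 := h (j η)
  rw [enn_congr (j.norm_map η)] at h1
  rw [← h1]
  refine tsum_congr fun p => ?_
  change ‖⟪cutR N hj R hR p.2 (adjoint j.toContinuousLinearMap (e p.1)), η⟫_ℂ‖ₑ ^ 2 =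
    ‖⟪R (p.2 : Γ) (e p.1), j η⟫_ℂ‖ₑ ^ 2
  rw [cutR_c, adjoint_inner_left]
  rfl

/-- **no operator of finite trace on the piece** -/
theorem hsZ_cut [Infinite N] (hj : Cut z j) (h1 : ∀ n : N, z * V n = V n * z)
    {R : Γ →* (ℋ →L[ℂ] ℋ)} (hR : ∀ n : N, z * R n = R n * z) (hVa : ∀ g, adjoint (V g) = V g⁻¹)
    (hRa : ∀ g, adjoint (R g) = R g⁻¹) (hVR : ∀ g h, V g * R h = R h * V g)
    {Q₀ : Type} {e₀ : Q₀ → ℋ} (hf : Frq R e₀) (hm : Mixq V R e₀)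
    (Q : Type) (e : Q → 𝒦) (he : Frq (cutR N hj R hR) e) (T : 𝒦 →L[ℂ] 𝒦)
    (hT1 : ∀ g, T * cutR N hj V h1 g = cutR N hj V h1 g * T)
    (hT2 : ∀ g, T * cutR N hj R hR g = cutR N hj R hR g * T) (ht : trq e T < ∞) : T = 0 := by
  have f1 := frq_res N hf
  have m1 := mixq_res N hRa hVR hm
  have f2 := frq_cut N hj hR f1
  rw [← trq_indep (cutR_adj hj hR hRa) he f2 hT2] at ht
  set T' : ℋ →L[ℂ] ℋ := j.toContinuousLinearMap ∘L T ∘L adjoint j.toContinuousLinearMap with hT'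
  have hT'a : ∀ u, T' u = j (T (adjoint j.toContinuousLinearMap u)) := fun u => rfl
  have hc : ∀ {U : Γ →* (ℋ →L[ℂ] ℋ)} (hU : ∀ n : N, z * U n = U n * z),
      (∀ g, T * cutR N hj U hU g = cutR N hj U hU g * T) →
      ∀ g, T' * (U.comp N.subtype) g = (U.comp N.subtype) g * T' := by
    intro U hU hTU g
    ext1 u
    change T' (U (g : Γ) u) = U (g : Γ) (T' u)
    rw [hT'a, hT'a, ← cutR_c hj hU, ← cutR_j hj hU]
    exact congrArg j (cm_ap (hTU g) _)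
  have h0 : T' = 0 := by
    refine zero_of_mix (V := V.comp N.subtype) (R := R.comp N.subtype) (fun g => ?_) (fun g => ?_)
      (fun g g' => hVR _ _) f1 m1 (hc h1 hT1) (hc hR hT2) ?_
    · change adjoint (V (g : Γ)) = V ((g⁻¹ : N) : Γ)
      rw [hVa, Subgroup.coe_inv]
    · change adjoint (R (g : Γ)) = R ((g⁻¹ : N) : Γ)
      rw [hRa, Subgroup.coe_inv]
    · refine lt_of_le_of_lt (le_of_eq ?_) ht
      rw [trq, trq]
      refine tsum_congr fun q => ?_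
      rw [hT'a, enn_congr (j.norm_map _)]
  ext1 v
  apply j.injective
  have h3 : T' (j v) = 0 := by rw [h0]; rfl
  rw [hT'a, cj] at h3
  rw [h3]
  exact (map_zero j).symm

end fr

end Vale.Agent.P092.H862.FI
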