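import Vale.Agent.P092.H962.EqP

/-!
P092 (helper862), [OV]: averages over the cosets of a subgroup of finite index; a minimal projection
in the commutant of the restriction of three commuting unitary representations.
-/

set_option linter.all false

open scoped InnerProductSpace
open ContinuousLinearMap

namespace Vale.Agent.P092.H862.FI

open Vale.Agent.P092.H962.Eq

variable {H : Type} [NormedAddCommGroup H] [InnerProductSpace ℂ H] [CompleteSpace H]

/-- `Re ⟪A v, v⟫ ≥ 0` -/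
def Psv (A : H →L[ℂ] H) : Prop := ∀ v, 0 ≤ (⟪A v, v⟫_ℂ).re

/-! ### Averages -/

section av

variable {Γ : Type} [Group Γ] (N : Subgroup Γ) [Fintype (Γ ⧸ N)] (U : Γ →* (H →L[ℂ] H))

/-- the sum of `U(x) A U(x)⁻¹` over the cosets -/
noncomputable def av (A : H →L[ℂ] H) : H →L[ℂ] H := ∑ x : Γ ⧸ N, U x.out * A * U x.out⁻¹

theorem av_add (A B : H →L[ℂ] H) : av N U (A + B) = av N U A + av N U B := by
  rw [av, av, av, ← Finset.sum_add_distrib]
  exact Finset.sum_congr rfl fun x _ => by rw [mul_add, add_mul]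

omit [Fintype (Γ ⧸ N)] [CompleteSpace H] in
theorem conj_eq {A : H →L[ℂ] H} (hA : ∀ n : N, A * U n = U n * A) (g : Γ) (n : N) :
    U (g * n) * A * U (g * n)⁻¹ = U g * A * U g⁻¹ := by
  have h1 : U (n : Γ) * U (n : Γ)⁻¹ = 1 := by rw [← map_mul, mul_inv_cancel, map_one]
  calc U (g * n) * A * U (g * n)⁻¹ = U g * (U (n : Γ) * A) * (U (n : Γ)⁻¹ * U g⁻¹) := by
        rw [map_mul, mul_inv_rev, map_mul]; simp only [mul_assoc]
    _ = U g * A * (U (n : Γ) * U (n : Γ)⁻¹) * U g⁻¹ := by rw [← hA]; simp only [mul_assoc]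
    _ = _ := by rw [h1, mul_one]

theorem av_comm {A : H →L[ℂ] H} (hA : ∀ n : N, A * U n = U n * A) (h : Γ) :
    av N U A * U h = U h * av N U A := by
  have h0 : U h⁻¹ * U h = 1 := by rw [← map_mul, inv_mul_cancel, map_one]
  have e1 : U h * av N U A * U h⁻¹ = av N U A := by
    rw [av, Finset.mul_sum, Finset.sum_mul]
    refine Fintype.sum_equiv (MulAction.toPerm h) _ _ fun x => ?_
    change U h * (U x.out * A * U x.out⁻¹) * U h⁻¹ =
      U (h • x : Γ ⧸ N).out * A * U (h • x : Γ ⧸ N).out⁻¹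
    obtain ⟨n, hn⟩ := QuotientGroup.mk_out_eq_mul N (h * x.out)
    have h2 : (h • x : Γ ⧸ N) = ((h * x.out : Γ) : Γ ⧸ N) := by
      conv_lhs => rw [← QuotientGroup.out_eq' x]
      rfl
    rw [h2, hn, conj_eq N U hA, map_mul, mul_inv_rev, map_mul]
    simp only [mul_assoc]
  calc av N U A * U h = U h * av N U A * (U h⁻¹ * U h) := by rw [← mul_assoc, e1]
    _ = _ := by rw [h0, mul_one]

theorem av_comm' {A B : H →L[ℂ] H} (h1 : A * B = B * A) (h2 : ∀ g, B * U g = U g * B) :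
    av N U A * B = B * av N U A := by
  rw [av, Finset.mul_sum, Finset.sum_mul]
  refine Finset.sum_congr rfl fun x _ => ?_
  calc U x.out * A * U x.out⁻¹ * B = U x.out * (A * B) * U x.out⁻¹ := by
        rw [mul_assoc, ← h2]; simp only [mul_assoc]
    _ = _ := by rw [h1, ← mul_assoc, ← h2]; simp only [mul_assoc]

variable {U}

theorem av_psv (hU : ∀ g, adjoint (U g) = U g⁻¹) {A : H →L[ℂ] H} (hA : Psv A) :
    Psv (av N U A) := by
  intro v
  rw [av, ContinuousLinearMap.sum_apply, sum_inner, Complex.re_sum]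
  refine Finset.sum_nonneg fun x _ => ?_
  have e : ⟪(U x.out * A * U x.out⁻¹) v, v⟫_ℂ = ⟪A (U x.out⁻¹ v), U x.out⁻¹ v⟫_ℂ := by
    change ⟪U x.out (A (U x.out⁻¹ v)), v⟫_ℂ = _
    rw [← adjoint_inner_right, hU]
  rw [e]
  exact hA _

theorem av_ge (hU : ∀ g, adjoint (U g) = U g⁻¹) {A : H →L[ℂ] H} (hA : Psv A)
    (hN : ∀ n : N, A * U n = U n * A) (v : H) :
    (⟪A v, v⟫_ℂ).re ≤ (⟪av N U A v, v⟫_ℂ).re := by
  rw [av, ContinuousLinearMap.sum_apply, sum_inner, Complex.re_sum]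
  have e : ∀ x : Γ ⧸ N, ⟪(U x.out * A * U x.out⁻¹) v, v⟫_ℂ =
      ⟪A (U x.out⁻¹ v), U x.out⁻¹ v⟫_ℂ := by
    intro x
    change ⟪U x.out (A (U x.out⁻¹ v)), v⟫_ℂ = _
    rw [← adjoint_inner_right, hU]
  have e1 : (⟪A v, v⟫_ℂ).re =
      (⟪(U ((1 : Γ) : Γ ⧸ N).out * A * U ((1 : Γ) : Γ ⧸ N).out⁻¹) v, v⟫_ℂ).re := by
    obtain ⟨n, hn⟩ := QuotientGroup.mk_out_eq_mul N (1 : Γ)
    rw [hn, conj_eq N U hN, inv_one, map_one, one_mul, mul_one]
  rw [e1]
  refine Finset.single_le_sum (f := fun x : Γ ⧸ N =>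
    (⟪(U x.out * A * U x.out⁻¹) v, v⟫_ℂ).re) (fun x _ => ?_) (Finset.mem_univ _)
  change 0 ≤ (⟪(U x.out * A * U x.out⁻¹) v, v⟫_ℂ).re
  rw [e]
  exact hA _

end av

/-! ### Minimal projections -/

section mini

variable {S : Set (H →L[ℂ] H)} {z x : H →L[ℂ] H}

/-- a nonzero projection of the commutant -/
structure Prj (S : Set (H →L[ℂ] H)) (z : H →L[ℂ] H) : Prop where
  cc : Cc S z
  adj : adjoint z = z
  sq : z * z = z
  ne : z ≠ 0

/-- a minimal projection of the commutant -/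
structure MPrj (S : Set (H →L[ℂ] H)) (z : H →L[ℂ] H) : Prop extends Prj S z where
  min : ∀ q, Prj S q → q * z = q → q = z

theorem MPrj.inj (hS : ∀ s ∈ S, adjoint s ∈ S) (hz : MPrj S z) (hx : Cc S x)
    (hxa : adjoint x = x) (hxz : x * z = x) (h0 : x ≠ 0) {v : H} (hv : z v = v) (hxv : x v = 0) :
    v = 0 := by
  have hS' : ∀ s ∈ insert x S, adjoint s ∈ insert x S := by
    rintro s (rfl | hs)
    · rw [hxa]; exact Or.inl rfl
    · exact Or.inr (hS s hs)
  have hx' : Cc (insert x S) x := by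
    rintro s (rfl | hs)
    · rfl
    · exact hx s hs
  obtain ⟨a, q, ha, hq, haa, hqa, hqq, hq0, h1, h2⟩ := exists_pi hS' hx' h0
  have hqz : q * z = q := h2 z hz.adj hxz
  have e : q = z := hz.min q ⟨fun s hs => hq s (Or.inr hs), hqa, hqq, hq0⟩ hqz
  subst e
  have e1 : adjoint (x * a * q) ((x * a * q) v) = q v := by
    exact DFunLike.congr_fun h1 v
  have e2 : (x * a * q) v = 0 := by
    change x (a (q v)) = 0
    rw [hv]
    have h3 : a (x v) = x (a v) := DFunLike.congr_fun (ha x (Or.inl rfl)) v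
    rw [← h3, hxv, map_zero]
  rw [e2, map_zero, hv] at e1
  exact e1.symm

/-- self-adjoint elements of `z M z` are multiples of `z` -/
theorem MPrj.sa (hS : ∀ s ∈ S, adjoint s ∈ S) (hz : MPrj S z) (hx : Cc S x)
    (hxa : adjoint x = x) (hxz : x * z = x) : ∃ t : ℝ, x = (t : ℂ) • z := by
  obtain ⟨u₀, hu₀⟩ : ∃ u, z u ≠ 0 := by
    by_contra h
    push Not at h
    exact hz.ne (by ext1 u; exact h u)
  set v := z u₀ with hv
  have hzv : z v = v := DFunLike.congr_fun hz.sq u₀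
  have hv0 : ‖v‖ ^ 2 ≠ 0 := by
    have := norm_ne_zero_iff.2 hu₀
    positivity
  set t : ℝ := (⟪x v, v⟫_ℂ).re / ‖v‖ ^ 2 with ht
  set y : H →L[ℂ] H := x - (t : ℂ) • z with hy
  have hzx : z * x = x := by
    have := congrArg adjoint hxz
    rw [adj_mul', hz.adj, hxa] at this
    exact this
  have hya : adjoint y = y := by
    rw [hy, map_sub, hxa]
    congr 1
    ext1 w
    refine ext_inner_left ℂ fun w' => ?_
    rw [adjoint_inner_right]
    change ⟪(t : ℂ) • z w', w⟫_ℂ = ⟪w', (t : ℂ) • z w⟫_ℂ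
    rw [inner_smul_left, inner_smul_right, Complex.conj_ofReal, ← adjoint_inner_right, hz.adj]
  have hyC : Cc S y := by
    refine hx.sub fun s hs => ?_
    rw [smul_mul_assoc, mul_smul_comm, hz.cc s hs]
  have hyz : y * z = y := by
    rw [hy, sub_mul, hxz, smul_mul_assoc, hz.sq]
  have hzy : z * y = y := by
    rw [hy, mul_sub, hzx, mul_smul_comm, hz.sq]
  have hys : IsSelfAdjoint y := hya
  have hyv : (⟪y v, v⟫_ℂ).re = 0 := by
    have e1 : y v = x v - (t : ℂ) • v := by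
      change x v - (t : ℂ) • z v = _
      rw [hzv]
    rw [e1, inner_sub_left, inner_smul_left, Complex.conj_ofReal, Complex.sub_re,
      Complex.re_ofReal_mul, inner_self_eq_norm_sq_to_K]
    have e2 : (((‖v‖ : ℝ) : ℂ) ^ 2).re = ‖v‖ ^ 2 := by norm_cast
    erw [e2]
    rw [ht]
    field_simp
    ring
  -- the two square roots
  set f : ℝ → ℝ := fun s => Real.sqrt (max s 0) with hf
  set g : ℝ → ℝ := fun s => Real.sqrt (max (-s) 0) with hg
  have hfc : Continuous f := Real.continuous_sqrt.comp (continuous_id.max continuous_const)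
  have hgc : Continuous g := Real.continuous_sqrt.comp (continuous_neg.max continuous_const)
  have hcomm : ∀ f : ℝ → ℝ, ∀ s, y * s = s * y → cfc f y * s = s * cfc f y := by
    intro f s hs
    exact (hys.commute_cfc (show Commute y s from hs) f)
  set u := cfc f y with hu
  set w := cfc g y with hw
  have huw : u * w = 0 := by
    rw [hu, hw, ← cfc_mul f g y hfc.continuousOn hgc.continuousOn]
    have : cfc (fun s => f s * g s) y = cfc (fun _ => (0 : ℝ)) y := by
      refine cfc_congr fun s _ => ?_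
      change Real.sqrt (max s 0) * Real.sqrt (max (-s) 0) = 0
      rcases le_total s 0 with h | h
      · rw [max_eq_right h, Real.sqrt_zero, zero_mul]
      · rw [max_eq_right (neg_nonpos.2 h), Real.sqrt_zero, mul_zero]
    rw [this, cfc_const_zero]
  have hsq : u * u - w * w = y := by
    rw [hu, hw, ← cfc_mul f f y hfc.continuousOn hfc.continuousOn,
      ← cfc_mul g g y hgc.continuousOn hgc.continuousOn,
      ← cfc_sub (fun s => f s * f s) (fun s => g s * g s) y (hfc.mul hfc).continuousOn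
        (hgc.mul hgc).continuousOn]
    conv_rhs => rw [← cfc_id' ℝ y hys]
    refine cfc_congr fun s _ => ?_
    change Real.sqrt (max s 0) * Real.sqrt (max s 0) -
      Real.sqrt (max (-s) 0) * Real.sqrt (max (-s) 0) = s
    rw [Real.mul_self_sqrt (le_max_right _ _), Real.mul_self_sqrt (le_max_right _ _)]
    rcases le_total s 0 with h | h
    · rw [max_eq_right h, max_eq_left (neg_nonneg.2 h)]; ring
    · rw [max_eq_left h, max_eq_right (neg_nonpos.2 h)]; ring
  have hua : adjoint u = u := (cfc_predicate f y : IsSelfAdjoint _)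
  have hwa : adjoint w = w := (cfc_predicate g y : IsSelfAdjoint _)
  have huz : u * z = z * u := hcomm f z (hyz.trans hzy.symm)
  have hwz : w * z = z * w := hcomm g z (hyz.trans hzy.symm)
  have huC : Cc S (u * z) := Cc.mul (fun s hs => hcomm f s (hyC s hs)) hz.cc
  have hwC : Cc S (w * z) := Cc.mul (fun s hs => hcomm g s (hyC s hs)) hz.cc
  have hua' : adjoint (u * z) = u * z := by rw [adj_mul', hua, hz.adj, huz]
  have hwa' : adjoint (w * z) = w * z := by rw [adj_mul', hwa, hz.adj, hwz]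
  have huz' : u * z * z = u * z := by rw [mul_assoc, hz.sq]
  have hwz' : w * z * z = w * z := by rw [mul_assoc, hz.sq]
  have huw' : (u * z) * (w * z) = 0 := by
    calc (u * z) * (w * z) = u * (z * w) * z := by simp only [mul_assoc]
      _ = u * w * (z * z) := by rw [← hwz]; simp only [mul_assoc]
      _ = 0 := by rw [huw, zero_mul]
  have hsq' : (u * z) * (u * z) - (w * z) * (w * z) = y := by
    have e1 : (u * z) * (u * z) = u * u * z := by
      calc (u * z) * (u * z) = u * (z * u) * z := by simp only [mul_assoc]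
        _ = u * u * (z * z) := by rw [← huz]; simp only [mul_assoc]
        _ = _ := by rw [hz.sq]
    have e2 : (w * z) * (w * z) = w * w * z := by
      calc (w * z) * (w * z) = w * (z * w) * z := by simp only [mul_assoc]
        _ = w * w * (z * z) := by rw [← hwz]; simp only [mul_assoc]
        _ = _ := by rw [hz.sq]
    rw [e1, e2, ← sub_mul, hsq, hyz]
  have hcase : u * z = 0 ∨ w * z = 0 := by
    by_contra hne
    push Not at hne
    obtain ⟨n1, n2⟩ := hne
    have h3 : (u * z) ((w * z) v) = 0 := DFunLike.congr_fun huw' v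
    have h4 : z ((w * z) v) = (w * z) v := by
      have : z * (w * z) = w * z := by rw [← mul_assoc, ← hwz, mul_assoc, hz.sq]
      exact DFunLike.congr_fun this v
    have h5 := hz.inj hS huC hua' huz' n1 h4 h3
    exact hu₀ (hz.inj hS hwC hwa' hwz' n2 hzv h5)
  refine ⟨t, ?_⟩
  rw [← sub_eq_zero]
  change y = 0
  have key : ∀ r : H →L[ℂ] H, Cc S r → adjoint r = r → r * z = r → ∀ c : ℝ, c ≠ 0 →
      y = (c : ℂ) • (r * r) → y = 0 := by
    intro r hr hra hrz c hc hyr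
    have e1 : (⟪y v, v⟫_ℂ).re = c * ‖r v‖ ^ 2 := by
      rw [hyr]
      change (⟪(c : ℂ) • r (r v), v⟫_ℂ).re = _
      rw [inner_smul_left, Complex.conj_ofReal, Complex.re_ofReal_mul, ← adjoint_inner_right, hra,
        inner_self_eq_norm_sq_to_K]
      norm_cast
    have e2 : r v = 0 := by
      rw [hyv] at e1
      have : ‖r v‖ ^ 2 = 0 := by
        rcases mul_eq_zero.1 e1.symm with h | h
        · exact absurd h hc
        · exact h
      exact norm_eq_zero.1 (pow_eq_zero_iff two_ne_zero |>.mp this)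
    by_contra hy0
    have hr0 : r ≠ 0 := by
      rintro rfl
      exact hy0 (by rw [hyr, zero_mul, smul_zero])
    exact hu₀ (hz.inj hS hr hra hrz hr0 hzv e2)
  rcases hcase with h | h
  · refine key (w * z) hwC hwa' hwz' (-1) (by norm_num) ?_
    rw [← hsq', h, zero_mul, zero_sub]
    push_cast
    rw [neg_smul, one_smul]
  · refine key (u * z) huC hua' huz' 1 one_ne_zero ?_
    rw [← hsq', h, zero_mul, sub_zero]
    push_cast
    rw [one_smul]

/-- **`z M z = ℂ z`** -/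
theorem MPrj.scal (hS : ∀ s ∈ S, adjoint s ∈ S) (hz : MPrj S z) (hx : Cc S x)
    (hxz : x * z = x) (hzx : z * x = x) : ∃ c : ℂ, x = c • z := by
  have hxa := hx.adj hS
  have h1 : adjoint x * z = adjoint x := by
    have := congrArg adjoint hzx
    rw [adj_mul', hz.adj] at this
    exact this
  have hsm : ∀ (c : ℂ) (A : H →L[ℂ] H), Cc S A → Cc S (c • A) := fun c A hA s hs => by
    rw [smul_mul_assoc, mul_smul_comm, hA s hs]
  have hasm : ∀ (c : ℂ) (A : H →L[ℂ] H), adjoint (c • A) = (starRingEnd ℂ) c • adjoint A := by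
    intro c A
    exact star_smul c A
  obtain ⟨t, ht⟩ := hz.sa hS (x := x + adjoint x) (hx.add hxa)
    (by rw [map_add, adj_adj', add_comm]) (by rw [add_mul, hxz, h1])
  obtain ⟨r, hr⟩ := hz.sa hS (x := Complex.I • (x - adjoint x)) (hsm _ _ (hx.sub hxa))
    (by
      rw [hasm, map_sub, adj_adj', Complex.conj_I, neg_smul, ← smul_neg, neg_sub])
    (by rw [smul_mul_assoc, sub_mul, hxz, h1])
  refine ⟨((t : ℂ) - Complex.I * r) / 2, ?_⟩
  have e1 : x - adjoint x = (-(Complex.I * r) : ℂ) • z := by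
    have e2 : Complex.I • (Complex.I • (x - adjoint x)) = Complex.I • ((r : ℂ) • z) := by rw [hr]
    rw [smul_smul, smul_smul, Complex.I_mul_I, neg_smul, one_smul] at e2
    rw [neg_smul, ← e2, neg_neg]
  have e3 : x + x = ((t : ℂ) - Complex.I * r) • z := by
    have e4 : x + x = (x + adjoint x) + (x - adjoint x) := by abel
    rw [e4, ht, e1, ← add_smul, sub_eq_add_neg]
  have e5 : x = (1 / 2 : ℂ) • (x + x) := by
    rw [← two_smul ℂ x, smul_smul]
    norm_num
  rw [e5, e3, smul_smul]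
  congr 1
  ring

/-- a positive additive function which is at least one on nonzero projections -/
theorem exists_mprj [Nontrivial H] (φ : (H →L[ℂ] H) → ℝ)
    (hadd : ∀ p q, Cc S p → Cc S q → φ (p + q) = φ p + φ q) (h1 : ∀ q, Prj S q → 1 ≤ φ q) :
    ∃ z, MPrj S z := by
  set I : Set ℝ := {r | ∃ q, Prj S q ∧ φ q = r} with hI
  have hone : Prj S (1 : H →L[ℂ] H) :=
    ⟨Cc.one, (IsSelfAdjoint.one _ : IsSelfAdjoint (1 : H →L[ℂ] H)), mul_one _, one_ne_zero⟩
  have hne : I.Nonempty := ⟨φ 1, 1, hone, rfl⟩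
  have hbd : BddBelow I := ⟨1, by rintro _ ⟨q, hq, rfl⟩; exact h1 q hq⟩
  obtain ⟨r, ⟨z, hz, rfl⟩, hr⟩ := exists_lt_of_csInf_lt hne (lt_add_one (sInf I))
  refine ⟨z, hz, fun q hq hqz => ?_⟩
  by_contra hne'
  have hzq : z * q = q := by
    have := congrArg adjoint hqz
    rw [adj_mul', hz.adj, hq.adj] at this
    exact this
  have hd : Prj S (z - q) := by
    refine ⟨hz.cc.sub hq.cc, by rw [map_sub, hz.adj, hq.adj], ?_, ?_⟩
    · rw [sub_mul, mul_sub, mul_sub, hz.sq, hzq, hqz, hq.sq]; abel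
    · exact sub_ne_zero.2 fun h => hne' h.symm
  have e1 : φ z = φ (z - q) + φ q := by
    rw [← hadd _ _ hd.cc hq.cc, sub_add_cancel]
  have e2 : sInf I ≤ φ q := csInf_le hbd ⟨q, hq, rfl⟩
  have e3 := h1 _ hd
  linarith

end mini

/-! ### The commutant of the restriction of three representations -/

section three

variable {Γ : Type} [Group Γ] (N : Subgroup Γ) {V R₁ R₂ : Γ →* (H →L[ℂ] H)}

/-- the generators of the restriction -/
def gens (V R₁ R₂ : Γ →* (H →L[ℂ] H)) : Set (H →L[ℂ] H) :=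
  {s | ∃ n : N, s = V n ∨ s = R₁ n ∨ s = R₂ n}

theorem gens_adj (hV : ∀ g, adjoint (V g) = V g⁻¹) (h1 : ∀ g, adjoint (R₁ g) = R₁ g⁻¹)
    (h2 : ∀ g, adjoint (R₂ g) = R₂ g⁻¹) : ∀ s ∈ gens N V R₁ R₂, adjoint s ∈ gens N V R₁ R₂ := by
  rintro _ ⟨n, rfl | rfl | rfl⟩
  · exact ⟨n⁻¹, Or.inl (by rw [hV, Subgroup.coe_inv])⟩
  · exact ⟨n⁻¹, Or.inr (Or.inl (by rw [h1, Subgroup.coe_inv]))⟩
  · exact ⟨n⁻¹, Or.inr (Or.inr (by rw [h2, Subgroup.coe_inv]))⟩

theorem cc_gens {A : H →L[ℂ] H} : Cc (gens N V R₁ R₂) A ↔ (∀ n : N, A * V n = V n * A) ∧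
    (∀ n : N, A * R₁ n = R₁ n * A) ∧ ∀ n : N, A * R₂ n = R₂ n * A := by
  constructor
  · intro h
    exact ⟨fun n => h _ ⟨n, Or.inl rfl⟩, fun n => h _ ⟨n, Or.inr (Or.inl rfl)⟩,
      fun n => h _ ⟨n, Or.inr (Or.inr rfl)⟩⟩
  · rintro ⟨a, b, c⟩ _ ⟨n, rfl | rfl | rfl⟩
    exacts [a n, b n, c n]

/-- **A minimal projection in the commutant of the restriction to `N`.** -/
theorem exists_min [Nontrivial H] [N.FiniteIndex] (hV : ∀ g, adjoint (V g) = V g⁻¹)
    (h1 : ∀ g, adjoint (R₁ g) = R₁ g⁻¹) (h2 : ∀ g, adjoint (R₂ g) = R₂ g⁻¹)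
    (c1 : ∀ g h, V g * R₁ h = R₁ h * V g) (c2 : ∀ g h, V g * R₂ h = R₂ h * V g)
    (c12 : ∀ g h, R₁ g * R₂ h = R₂ h * R₁ g)
    (irr : ∀ A : H →L[ℂ] H, (∀ v, A * V v = V v * A) → (∀ g, A * R₁ g = R₁ g * A) →
      (∀ g, A * R₂ g = R₂ g * A) → ∃ z : ℂ, A = z • (1 : H →L[ℂ] H)) :
    ∃ z, MPrj (gens N V R₁ R₂) z := by
  haveI : Fintype (Γ ⧸ N) := Fintype.ofFinite _
  set Φ : (H →L[ℂ] H) → (H →L[ℂ] H) := fun A => av N V (av N R₁ (av N R₂ A)) with hΦ
  have comm : ∀ A, Cc (gens N V R₁ R₂) A → ∃ c : ℂ, Φ A = c • (1 : H →L[ℂ] H) := by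
    intro A hA
    obtain ⟨a1, a2, a3⟩ := (cc_gens N).1 hA
    -- after `av R₂`
    have b1 : ∀ n : N, av N R₂ A * V n = V n * av N R₂ A := fun n =>
      av_comm' N R₂ (a1 n) fun g => c2 _ _
    have b2 : ∀ n : N, av N R₂ A * R₁ n = R₁ n * av N R₂ A := fun n =>
      av_comm' N R₂ (a2 n) fun g => c12 _ _
    have b3 : ∀ g, av N R₂ A * R₂ g = R₂ g * av N R₂ A := av_comm N R₂ a3
    have d1 : ∀ n : N, av N R₁ (av N R₂ A) * V n = V n * av N R₁ (av N R₂ A) := fun n =>
      av_comm' N R₁ (b1 n) fun g => c1 _ _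
    have d2 : ∀ g, av N R₁ (av N R₂ A) * R₁ g = R₁ g * av N R₁ (av N R₂ A) := av_comm N R₁ b2
    have d3 : ∀ g, av N R₁ (av N R₂ A) * R₂ g = R₂ g * av N R₁ (av N R₂ A) := fun g =>
      av_comm' N R₁ (b3 g) fun h => (c12 _ _).symm
    exact irr _ (av_comm N V d1) (fun g => av_comm' N V (d2 g) fun h => (c1 _ _).symm)
      fun g => av_comm' N V (d3 g) fun h => (c2 _ _).symm
  obtain ⟨v₀, hv₀⟩ := exists_ne (0 : H)
  set φ : (H →L[ℂ] H) → ℝ := fun A => (⟪Φ A v₀, v₀⟫_ℂ).re / ‖v₀‖ ^ 2 with hφ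
  have hv0 : 0 < ‖v₀‖ ^ 2 := by have := norm_pos_iff.2 hv₀; positivity
  have hval : ∀ A, Cc (gens N V R₁ R₂) A → ∀ v, (⟪Φ A v, v⟫_ℂ).re = φ A * ‖v‖ ^ 2 := by
    intro A hA v
    obtain ⟨c, hc⟩ := comm A hA
    have e : ∀ w, (⟪Φ A w, w⟫_ℂ).re = c.re * ‖w‖ ^ 2 := by
      intro w
      rw [hc]
      change (⟪c • w, w⟫_ℂ).re = _
      rw [inner_smul_left, inner_self_eq_norm_sq_to_K]
      have : (((‖w‖ : ℝ) : ℂ) ^ 2) = ((‖w‖ ^ 2 : ℝ) : ℂ) := by norm_cast
      erw [this]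
      rw [Complex.re_mul_ofReal, Complex.conj_re]
    rw [e, hφ]
    change _ = (⟪Φ A v₀, v₀⟫_ℂ).re / ‖v₀‖ ^ 2 * ‖v‖ ^ 2
    rw [e]
    field_simp
  refine exists_mprj φ (fun p q hp hq => ?_) fun q hq => ?_
  · have e : Φ (p + q) = Φ p + Φ q := by
      rw [hΦ]
      change av N V (av N R₁ (av N R₂ (p + q))) = _
      rw [av_add, av_add, av_add]
    rw [hφ]
    change (⟪Φ (p + q) v₀, v₀⟫_ℂ).re / ‖v₀‖ ^ 2 = _
    rw [e, ContinuousLinearMap.add_apply, inner_add_left, Complex.add_re, add_div]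
  · obtain ⟨u₀, hu₀⟩ : ∃ u, q u ≠ 0 := by
      by_contra h
      push Not at h
      exact hq.ne (by ext1 u; exact h u)
    have hqv : q (q u₀) = q u₀ := DFunLike.congr_fun hq.sq u₀
    have hp : Psv q := by
      intro v
      have e : (⟪q v, v⟫_ℂ).re = ‖q v‖ ^ 2 := by
        have := (proj_norm_le hq.adj hq.sq v).1
        rw [this, ← adjoint_inner_right, hq.adj]
      rw [e]
      positivity
    obtain ⟨a1, a2, a3⟩ := (cc_gens N).1 hq.cc
    have b1 : ∀ n : N, av N R₂ q * V n = V n * av N R₂ q := fun n =>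
      av_comm' N R₂ (a1 n) fun g => c2 _ _
    have b2 : ∀ n : N, av N R₂ q * R₁ n = R₁ n * av N R₂ q := fun n =>
      av_comm' N R₂ (a2 n) fun g => c12 _ _
    have d1 : ∀ n : N, av N R₁ (av N R₂ q) * V n = V n * av N R₁ (av N R₂ q) := fun n =>
      av_comm' N R₁ (b1 n) fun g => c1 _ _
    have p2 := av_psv N h2 hp
    have p1 := av_psv N h1 p2
    have g2 := av_ge N h2 hp a3 (q u₀)
    have g1 := av_ge N h1 p2 b2 (q u₀)
    have g0 := av_ge N hV p1 d1 (q u₀)
    have e1 := hval q hq.cc (q u₀)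
    have e2 : (⟪q (q u₀), q u₀⟫_ℂ).re = ‖q u₀‖ ^ 2 := by
      rw [hqv, inner_self_eq_norm_sq_to_K]
      norm_cast
    have e3 : 0 < ‖q u₀‖ ^ 2 := by have := norm_pos_iff.2 hu₀; positivity
    have e4 : ‖q u₀‖ ^ 2 ≤ φ q * ‖q u₀‖ ^ 2 := by
      rw [← e1, ← e2]
      exact g2.trans (g1.trans g0)
    by_contra hlt
    push Not at hlt
    nlinarith

end three

end Vale.Agent.P092.H862.FI
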